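import Vale.Agent.P315R80.Ram

/-! The compiler from structured programs to the word RAM, and straight-line code. -/

set_option autoImplicit false

namespace Vale.Agent.P315R80

open Vale.Agent.P315

/-- A bound for the indices in an expression. -/
def esz : Expr → ℕ
  | .lit _ => 0
  | .reg i => i + 1
  | .get j e => max (j + 1) (esz e)
  | .op _ e e' => max (esz e) (esz e')

/-- A bound for the indices in a program. -/
def psz : Prog → ℕ
  | .set i e => max (i + 1) (esz e)
  | .put j e e' => max (j + 1) (max (esz e) (esz e'))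
  | .rand i => i + 1
  | .seq p q => max (psz p) (psz q)
  | .ite e p q => max (esz e) (max (psz p) (psz q))
  | .loop i e p => max (i + 1) (max (esz e) (psz p))

/-- The register with the length of the input part of array `j`. -/
def lenR (K j : ℕ) : ℕ := if j = 0 then K else if j = 1 then K + 1 else K + 3

/-- The register with the offset of the input part of array `j`. -/
def offR (K j : ℕ) : ℕ := if j = 1 then K else K + 3

/-- The address computation. -/
def cA (K j d : ℕ) : List Instr :=
  [.op .lt (d + 1) d (lenR K j), .op .add (d + 2) (offR K j) d, .op .mul (d + 2) (d + 2) (d + 1),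
    .op .eq (d + 1) (d + 1) (K + 3), .const (d + 3) K, .op .mul d d (d + 3), .const (d + 3) j,
    .op .add d d (d + 3), .op .add d (K + 2) d, .op .mul d d (d + 1), .op .add d d (d + 2)]

/-- The operations. -/
def cO : Op → ℕ → List Instr
  | .add, d => [.op .add d d (d + 1)]
  | .sub, d => [.op .lt (d + 2) (d + 1) d, .op .sub d d (d + 1), .op .mul d d (d + 2)]
  | .mul, d => [.op .mul d d (d + 1)]
  | .div, d => [.op .div d d (d + 1)]
  | .mod, d => [.op .mod d d (d + 1)]
  | .eq, d => [.op .eq d d (d + 1)]
  | .lt, d => [.op .lt d d (d + 1)]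

/-- The code of an expression; the value is put in register `d`. -/
def cE (K : ℕ) : Expr → ℕ → List Instr
  | .lit c, d => [.const d c]
  | .reg i, d => [.op .and d i i]
  | .get j e, d => cE K e d ++ (cA K j d ++ [.load d d])
  | .op o e e', d => cE K e d ++ (cE K e' (d + 1) ++ cO o d)

/-- The code of a program that starts at line `l`; the registers from `d` on are free. -/
def cP (K S : ℕ) : Prog → ℕ → ℕ → List Instr
  | .set i e, d, _ => cE K e d ++ [.op .and i d d]
  | .put j e e', d, _ => cE K e d ++ (cA K j d ++ (cE K e' (d + 1) ++ [.store d (d + 1)]))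
  | .rand i, d, _ => [.rand d, .const (d + 1) S, .op .div i d (d + 1)]
  | .seq p q, d, l => cP K S p d l ++ cP K S q d (l + (cP K S p d l).length)
  | .ite e p q, d, l =>
    let l1 := l + (cE K e d).length + 1
    let l2 := l1 + (cP K S p d l1).length + 1
    cE K e d ++ (.jz d l2 :: (cP K S p d l1 ++
      (.jmp (l2 + (cP K S q d l2).length) :: cP K S q d l2)))
  | .loop i e p, d, l =>
    let l1 := l + (cE K e d).length + 1
    cE K e d ++ (.const (d + 1) 0 :: .op .lt (d + 2) (d + 1) d ::
      .jz (d + 2) (l1 + 3 + (cP K S p (d + 2) (l1 + 3)).length + 3) :: .op .and i (d + 1) (d + 1) ::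
      (cP K S p (d + 2) (l1 + 3) ++ [.const (d + 2) 1, .op .add (d + 1) (d + 1) (d + 2), .jmp l1]))

/-- The code is in the program `P`, from line `l` on. -/
def At (P : List Instr) : ℕ → List Instr → Prop
  | _, [] => True
  | l, i :: code => P[l]? = some i ∧ At P (l + 1) code

theorem at_append {P : List Instr} {a b : List Instr} {l : ℕ} :
    At P l (a ++ b) ↔ At P l a ∧ At P (l + a.length) b := by
  induction a generalizing l with
  | nil => simp [At]
  | cons i a ih => simp only [List.cons_append, At, ih, List.length_cons, and_assoc,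
      show l + 1 + a.length = l + (a.length + 1) by omega]

theorem at_self (pre code : List Instr) : At (pre ++ code) pre.length code := by
  induction code generalizing pre with
  | nil => trivial
  | cons i code ih =>
    refine ⟨by simp, ?_⟩
    have := ih (pre ++ [i])
    simpa using this

variable {w : ℕ} {P : List Instr} {ρ : ℕ → BitVec w} {c c' c'' : Cfg w} {t t' : ℕ}

/-- The machine goes from `c` to `c'` in at most `t` steps. -/
def Go (P : List Instr) (ρ : ℕ → BitVec w) (c : Cfg w) (t : ℕ) (c' : Cfg w) : Prop :=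
  ∃ u ≤ t, (step P ρ)^[u] c = c'

theorem Go.refl : Go P ρ c 0 c := ⟨0, le_rfl, rfl⟩

theorem Go.mono (h : Go P ρ c t c') (e : t ≤ t') : Go P ρ c t' c' :=
  let ⟨u, a, b⟩ := h; ⟨u, a.trans e, b⟩

theorem Go.trans (h : Go P ρ c t c') (h' : Go P ρ c' t' c'') : Go P ρ c (t + t') c'' := by
  obtain ⟨u, a, rfl⟩ := h
  obtain ⟨v, b, rfl⟩ := h'
  exact ⟨v + u, by omega, Function.iterate_add_apply _ _ _ _⟩

theorem Go.one {i : Instr} (h : P[c.pc]? = some i) : Go P ρ c 1 (i.exec ρ c) :=
  ⟨1, le_rfl, by simp only [Function.iterate_one, step, h]⟩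

/-- Straight-line execution. -/
def sl (ρ : ℕ → BitVec w) (c : Cfg w) (code : List Instr) : Cfg w :=
  code.foldl (fun c i => i.exec ρ c) c

theorem go_sl {code : List Instr} (h : ∀ i ∈ code, ∀ c : Cfg w, (i.exec ρ c).pc = c.pc + 1)
    (a : At P c.pc code) : Go P ρ c code.length (sl ρ c code) := by
  induction code generalizing c with
  | nil => exact Go.refl
  | cons i code ih =>
    have := (Go.one (ρ := ρ) a.1).trans (ih (fun j hj => h j (List.mem_cons_of_mem _ hj))
      (by rw [h i List.mem_cons_self]; exact a.2))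
    rwa [add_comm] at this

/-- Only registers from `d` on are changed. -/
structure Same (d : ℕ) (c c' : Cfg w) : Prop where
  mem : c'.mem = c.mem
  coins : c'.coins = c.coins
  reg : ∀ r < d, c'.reg r = c.reg r

theorem Same.trans {d d' : ℕ} (h : Same d c c') (h' : Same d' c' c'') (e : d ≤ d') :
    Same d c c'' :=
  ⟨h'.mem.trans h.mem, h'.coins.trans h.coins,
    fun r hr => (h'.reg r (hr.trans_le e)).trans (h.reg r hr)⟩

theorem same_set {d r : ℕ} (e : d ≤ r) (v : BitVec w) : Same d c (c.set r v) :=
  ⟨rfl, rfl, fun _ hr => Function.update_of_ne (hr.trans_le e).ne _ _⟩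

theorem set_self (c : Cfg w) (r : ℕ) (v : BitVec w) : (c.set r v).reg r = v :=
  Function.update_self ..

theorem set_ne (c : Cfg w) {r r' : ℕ} (v : BitVec w) (h : r' ≠ r) : (c.set r v).reg r' = c.reg r' :=
  Function.update_of_ne h _ _

theorem set_pc (c : Cfg w) (r : ℕ) (v : BitVec w) : (c.set r v).pc = c.pc + 1 := rfl

theorem set_mem (c : Cfg w) (r : ℕ) (v : BitVec w) : (c.set r v).mem = c.mem := rfl

theorem set_coins (c : Cfg w) (r : ℕ) (v : BitVec w) : (c.set r v).coins = c.coins := rfl

/-- The address of the entry `a` of array `j`. -/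
def adr (K lx ly j a : ℕ) : ℕ :=
  if a < (if j = 0 then lx else if j = 1 then ly else 0) then (if j = 1 then lx else 0) + a
  else lx + ly + (a * K + j)

theorem adr_lt {K lx ly N j a : ℕ} (hl : lx + ly ≤ N) (hj : j < K) (ha : a < N) :
    adr K lx ly j a < N * (K + 1) := by
  have h1 : (a + 1) * K ≤ N * K := Nat.mul_le_mul_right K ha
  have h2 : N * (K + 1) = N * K + N := by ring
  have h3 : (a + 1) * K = a * K + K := by ring
  unfold adr
  split_ifs <;> omega

theorem adr_inj {K lx ly j a j' a' : ℕ} (hj : j < K) (hj' : j' < K)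
    (h : adr K lx ly j a = adr K lx ly j' a') : j = j' ∧ a = a' := by
  have k : a * K + j = a' * K + j' → j = j' ∧ a = a' := fun e => by
    have e1 := congrArg (· % K) e
    simp only [Nat.mul_add_mod_self_right, Nat.mod_eq_of_lt hj, Nat.mod_eq_of_lt hj'] at e1
    subst e1
    exact ⟨rfl, Nat.eq_of_mul_eq_mul_right (by omega) (Nat.add_right_cancel e)⟩
  unfold adr at h
  split_ifs at h <;> omega

/-- The parameters fit. -/
structure Fit (w K S lx ly N : ℕ) : Prop where
  hN : N * (K + 1) ≤ 2 ^ w
  hl : lx + ly ≤ N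
  hS : S < 2 ^ w
  hK : 3 ≤ K
  pos : 0 < N

theorem Fit.le {K S lx ly N : ℕ} (F : Fit w K S lx ly N) : N ≤ 2 ^ w :=
  (Nat.le_mul_of_pos_right N K.succ_pos).trans F.hN

theorem Fit.one {K S lx ly N : ℕ} (F : Fit w K S lx ly N) : 1 < 2 ^ w := by
  have := F.hN
  have := F.hK
  have := F.pos
  nlinarith

theorem toNat_ite (h : 1 < 2 ^ w) (p : Prop) [Decidable p] :
    (if p then 1 else 0 : BitVec w).toNat = if p then 1 else 0 := by
  split_ifs
  · exact Nat.mod_eq_of_lt h
  · simp

/-- The configuration represents the state. -/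
structure Rel (K lx ly N : ℕ) (s : State) (c : Cfg w) : Prop where
  reg : ∀ i < K, (c.reg i).toNat = s.reg i
  r0 : c.reg K = BitVec.ofNat w lx
  r1 : c.reg (K + 1) = BitVec.ofNat w ly
  r2 : c.reg (K + 2) = BitVec.ofNat w (lx + ly)
  r3 : c.reg (K + 3) = 0
  mem : ∀ j < K, ∀ a < N, (c.mem (BitVec.ofNat w (adr K lx ly j a))).toNat = s.arr j a
  coins : c.coins = s.coins

variable {K S lx ly N d : ℕ} {s : State}

theorem Rel.same (h : Rel K lx ly N s c) (e : Same d c c') (hd : K + 4 ≤ d) : Rel K lx ly N s c' :=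
  ⟨fun i hi => by rw [e.reg i (by omega), h.reg i hi], by rw [e.reg _ (by omega), h.r0],
    by rw [e.reg _ (by omega), h.r1], by rw [e.reg _ (by omega), h.r2],
    by rw [e.reg _ (by omega), h.r3], fun j hj a ha => by rw [e.mem, h.mem j hj a ha],
    e.coins.trans h.coins⟩

theorem go_A (F : Fit w K S lx ly N) (h : Rel K lx ly N s c) (hd : K + 4 ≤ d) {j a : ℕ}
    (ha : (c.reg d).toNat = a) (at1 : At P c.pc (cA K j d)) :
    ∃ c', Go P ρ c 11 c' ∧ c'.pc = c.pc + 11 ∧ c'.reg d = BitVec.ofNat w (adr K lx ly j a) ∧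
      Same d c c' := by
  have h1 : lenR K j < d := by unfold lenR; split_ifs <;> omega
  have h2 : offR K j < d := by unfold offR; split_ifs <;> omega
  have l1 := F.le
  have l2 := F.hl
  have l3 := F.pos
  have e1 : (c.reg (lenR K j)).toNat = if j = 0 then lx else if j = 1 then ly else 0 := by
    unfold lenR
    split_ifs
    · rw [h.r0, BitVec.toNat_ofNat]
      rcases Nat.lt_or_ge lx (2 ^ w) with k | k
      · exact Nat.mod_eq_of_lt k
      · have := F.hN
        have := F.hK
        nlinarith
    · rw [h.r1, BitVec.toNat_ofNat]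
      rcases Nat.lt_or_ge ly (2 ^ w) with k | k
      · exact Nat.mod_eq_of_lt k
      · have := F.hN
        have := F.hK
        nlinarith
    · rw [h.r3]; simp
  have e2 : c.reg (offR K j) = BitVec.ofNat w (if j = 1 then lx else 0) := by
    unfold offR
    split_ifs
    exacts [h.r0, h.r3]
  have e3 : c.reg d = BitVec.ofNat w a := by rw [← ha, BitVec.ofNat_toNat, BitVec.setWidth_eq]
  have e4 : (1 : BitVec w) ≠ 0 := fun e => by
    have := toNat_ite F.one True
    simp [e] at this
  refine ⟨_, go_sl (by simp [cA, Instr.exec, set_pc]) at1, ?_, ?_, ?_, ?_, fun r hr => ?_⟩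
  · simp only [sl, cA, List.foldl_cons, List.foldl_nil, Instr.exec, set_pc]
  · simp (disch := omega) only [sl, cA, List.foldl_cons, List.foldl_nil, Instr.exec, set_self,
      set_ne, WOp.eval, h.r2, h.r3, e2, BitVec.lt_def, ha, e1, adr]
    rw [e3]
    generalize (if j = 0 then lx else if j = 1 then ly else 0) = q
    generalize (if j = 1 then lx else 0) = q'
    by_cases k : a < q
    · simp only [k, e4, if_true, if_false, mul_zero, mul_one, zero_add, BitVec.ofNat_add]
    · simp only [k, if_true, if_false, mul_zero, mul_one, add_zero, BitVec.ofNat_add,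
        BitVec.ofNat_mul]
  · simp only [sl, cA, List.foldl_cons, List.foldl_nil, Instr.exec, set_mem]
  · simp only [sl, cA, List.foldl_cons, List.foldl_nil, Instr.exec, set_coins]
  · simp (disch := omega) only [sl, cA, List.foldl_cons, List.foldl_nil, Instr.exec, set_ne]

theorem go_O (F : Fit w K S lx ly N) {o : Op} {a a' : ℕ} (ha : (c.reg d).toNat = a)
    (ha' : (c.reg (d + 1)).toNat = a') (hv : o.eval a a' < N) (at1 : At P c.pc (cO o d)) :
    ∃ c', Go P ρ c 3 c' ∧ c'.pc = c.pc + (cO o d).length ∧ (c'.reg d).toNat = o.eval a a' ∧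
      Same d c c' := by
  have l1 := hv.trans_le F.le
  have l2 := (c.reg d).isLt
  have l3 := (c.reg (d + 1)).isLt
  have i1 := toNat_ite F.one
  refine ⟨_, (go_sl (by cases o <;> simp [cO, Instr.exec, set_pc]) at1).mono
    (by cases o <;> simp [cO]), by cases o <;> rfl, ?_, by cases o <;> rfl, by cases o <;> rfl,
    fun r hr => ?_⟩
  · subst ha ha'
    cases o <;> simp (disch := omega) only [sl, cO, List.foldl_cons, List.foldl_nil, Instr.exec,
      WOp.eval, set_ne, set_self, Op.eval, BitVec.lt_def, i1] at l1 ⊢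
    · rw [BitVec.toNat_add, Nat.mod_eq_of_lt l1]
    · split_ifs with k
      · rw [mul_one, BitVec.toNat_sub_of_le (BitVec.le_def.2 k.le)]
      · simp; omega
    · rw [BitVec.toNat_mul, Nat.mod_eq_of_lt l1]
    · rw [BitVec.toNat_udiv]
    · rw [BitVec.toNat_umod]
    · simp only [BitVec.toNat_eq]
  · cases o <;>
      simp (disch := omega) only [sl, cO, List.foldl_cons, List.foldl_nil, Instr.exec, set_ne]

end Vale.Agent.P315R80
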