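import Vale.Agent.P315R80.Code
import Vale.Agent.P315Z.Lower

/-! The linear lower bound for the word RAM: a step reads at most one memory cell. -/

set_option autoImplicit false

namespace Vale.Agent.P315R80

open Vale.Agent.P315 Finset
open Vale.Agent.P315Z.Lower (unit unit_ne eq_of_ED)

variable {w : ℕ} {P : List Instr} {ρ : ℕ → BitVec w} {c c' : Cfg w} {i : ℕ}

/-- The configurations agree except possibly in the memory cell `i`. -/
structure Near (i : ℕ) (c c' : Cfg w) : Prop where
  pc : c.pc = c'.pc
  reg : c.reg = c'.reg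
  coins : c.coins = c'.coins
  mem : ∀ a, a.toNat ≠ i → c.mem a = c'.mem a

/-- The memory cell that is read in the next step. -/
def rd (P : List Instr) (c : Cfg w) : ℕ :=
  match P[c.pc]? with
  | some (.load _ a) => (c.reg a).toNat
  | _ => 0

theorem Near.set (h : Near i c c') (r : ℕ) (v : BitVec w) : Near i (c.set r v) (c'.set r v) :=
  ⟨congrArg (· + 1) h.pc, by simp only [Cfg.set, h.reg], h.coins, h.mem⟩

theorem Near.step (h : Near i c c') (e : rd P c ≠ i) : Near i (step P ρ c) (step P ρ c') := by
  unfold rd at e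
  unfold P315R80.step
  rw [← h.pc]
  rcases k : P[c.pc]? with _ | j
  · exact h
  rw [k] at e
  cases j with
  | const r v => exact h.set _ _
  | op o r a b => simpa only [Instr.exec, h.reg] using h.set _ _
  | load r a => simpa only [Instr.exec, h.mem _ e, ← h.reg] using h.set _ _
  | store a r =>
    refine ⟨congrArg (· + 1) h.pc, h.reg, h.coins, fun b hb => ?_⟩
    simp only [Instr.exec, h.reg, Function.update_apply, h.mem b hb]
  | rand r =>
    have := h.set r (ρ c.coins)
    exact ⟨this.pc, by simpa only [Instr.exec, ← h.coins] using this.reg,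
      congrArg (· + 1) h.coins, h.mem⟩
  | jz r l => exact ⟨by simp only [Instr.exec, h.reg, h.pc], h.reg, h.coins, h.mem⟩
  | jmp l => exact ⟨rfl, h.reg, h.coins, h.mem⟩

theorem Near.iter (h : Near i c c') (T : ℕ)
    (e : i ∉ (range T).image fun k => rd P ((P315R80.step P ρ)^[k] c)) :
    Near i ((P315R80.step P ρ)^[T] c) ((P315R80.step P ρ)^[T] c') := by
  induction T with
  | zero => exact h
  | succ T ih =>
    rw [range_add_one, image_insert, mem_insert, not_or] at e
    rw [Function.iterate_succ_apply', Function.iterate_succ_apply']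
    exact (ih e.2).step (Ne.symm e.1)

theorem near_init (w n i : ℕ) : Near (n + i) (init w (List.replicate n 0) (List.replicate n 0))
    (init w (List.replicate n 0) (unit n i)) := by
  refine ⟨rfl, by simp [init, unit], rfl, fun a ha => ?_⟩
  simp only [init, unit, List.getD_eq_getElem?_getD, List.getElem?_append, List.length_replicate]
  split_ifs with k
  · rfl
  · rw [List.getElem?_set_ne (by omega)]

theorem count {Ω : Type*} [Fintype Ω] [DecidableEq Ω] [Nonempty Ω] {n T : ℕ} (G0 : Finset Ω)
    (G : ℕ → Finset Ω) (h0 : 2 * Fintype.card Ω ≤ 3 * G0.card)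
    (h1 : ∀ i, 2 * Fintype.card Ω ≤ 3 * (G i).card)
    (h2 : ∀ ρ ∈ G0, ((range n).filter fun i => ρ ∈ G i).card ≤ T) : n ≤ 3 * T := by
  set M := Fintype.card Ω
  have h1' : ∀ i ∈ range n, M ≤ 3 * (G0.filter fun ρ => ρ ∈ G i).card := by
    intro i _
    have h3 := card_union_add_card_inter G0 (G i)
    have h4 : (G0 ∪ G i).card ≤ M := card_le_univ _
    have := h1 i
    rw [filter_mem_eq_inter]
    omega
  have h3 : ∑ i ∈ range n, (G0.filter fun ρ => ρ ∈ G i).card =
      ∑ ρ ∈ G0, ((range n).filter fun i => ρ ∈ G i).card := by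
    simp only [card_filter]
    exact sum_comm
  have h4 : n * M ≤ 3 * (G0.card * T) := by
    calc n * M = ∑ _i ∈ range n, M := by simp
      _ ≤ ∑ i ∈ range n, 3 * (G0.filter fun ρ => ρ ∈ G i).card := sum_le_sum h1'
      _ = 3 * ∑ ρ ∈ G0, ((range n).filter fun i => ρ ∈ G i).card := by rw [← mul_sum, h3]
      _ ≤ 3 * (G0.card * T) := by
        have := sum_le_sum h2
        rw [sum_const, smul_eq_mul] at this
        omega
  have h5 : G0.card ≤ M := card_le_univ _
  have h7 : n * M ≤ 3 * T * M := by nlinarith [Nat.mul_le_mul_right T h5]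
  exact Nat.le_of_mul_le_mul_right h7 Fintype.card_pos

theorem fin_bv (w : ℕ) : Finite (BitVec w) := Finite.of_equiv _ BitVec.equivFin.symm.toEquiv

/-- The linear lower bound. -/
theorem lower (α : ℝ) (P : List Instr) (n w T : ℕ)
    (h : ∀ x y : List ℕ, x.length = n → y.length = n → (∀ a ∈ x ++ y, a < 2) →
      2 * Nat.card (Fin T → BitVec w) ≤
        3 * Nat.card {ρ : Fin T → BitVec w // Approx α x y (run P x y ρ)}) : n ≤ 3 * T := by
  classical
  have := fin_bv w
  have := Fintype.ofFinite (Fin T → BitVec w)
  set z := List.replicate n 0 with hz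
  let G : List ℕ → Finset (Fin T → BitVec w) := fun y => univ.filter fun ρ =>
    Approx α z y (run P z y ρ)
  have hG : ∀ y : List ℕ, y.length = n → (∀ a ∈ y, a < 2) →
      2 * Fintype.card (Fin T → BitVec w) ≤ 3 * (G y).card := by
    intro y hy hy'
    have := h z y (by simp [hz]) hy (fun a ha => by
      rcases List.mem_append.1 ha with ha | ha
      · rw [List.eq_of_mem_replicate ha]; omega
      · exact hy' a ha)
    rwa [Nat.card_eq_fintype_card, Nat.card_eq_fintype_card, Fintype.card_subtype] at this
  refine count (G z) (fun i => G (unit n i))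
    (hG z (by simp [hz]) fun a ha => by rw [List.eq_of_mem_replicate ha]; omega)
    (fun i => hG (unit n i) (by simp [unit]) fun a ha => ?_) fun ρ hρ => ?_
  · rcases List.mem_or_eq_of_mem_set ha with ha | ha
    · rw [List.eq_of_mem_replicate ha]; omega
    · omega
  have hs := (mem_filter.1 hρ).2.2
  let τ : ℕ → BitVec w := fun i => if h : i < T then ρ ⟨i, h⟩ else 0
  refine (card_le_card_of_injOn (t := (range T).image fun k => rd P ((step P τ)^[k] (init w z z)))
    (n + ·) (fun i hi => ?_) fun a _ b _ e => Nat.add_left_cancel e).trans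
      (card_image_le.trans (card_range T).le)
  by_contra hc
  obtain ⟨hi, hi'⟩ := mem_filter.1 hi
  have hs' := (mem_filter.1 hi').2.1
  have e : (run P z z ρ).reg = (run P z (unit n i) ρ).reg := ((near_init w n i).iter T hc).reg
  have e0 : ED z z = 0 := by rw [ED_eq_lev, lev_self]
  rw [e0, Nat.cast_zero, mul_zero] at hs
  have e1 : ((run P z z ρ).reg 2).toNat = 0 := by
    exact_mod_cast le_antisymm hs (Nat.cast_nonneg _)
  exact unit_ne (mem_range.1 hi) (eq_of_ED (by rw [← e, e1] at hs'; exact Nat.le_zero.1 hs'))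

end Vale.Agent.P315R80
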