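import Vale.Agent.P315R80.Sim
import Vale.Agent.P315R80.Low
import Vale.Agent.P315Z.Final

/-! The whole compiled program and the upper bound for the word RAM. -/

set_option autoImplicit false

namespace Vale.Agent.P315R80

open Vale.Agent.P315

variable {w : ℕ} {P : List Instr} {ρ : ℕ → BitVec w} {K S N : ℕ}

/-- The first lines save the lengths. -/
def pro (K : ℕ) : List Instr := [.op .and K 0 0, .op .and (K + 1) 1 1, .op .add (K + 2) 0 1]

/-- The compiled program. -/
def comp (K S : ℕ) (p : Prog) : List Instr := pro K ++ cP K S p (K + 4) 3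

theorem Go.halt {c c' : Cfg w} {t T : ℕ} (h : Go P ρ c t c') (hh : Halted P c') (e : t ≤ T) :
    (step P ρ)^[T] c = c' := by
  obtain ⟨u, a, rfl⟩ := h
  obtain ⟨v, rfl⟩ : ∃ v, T = v + u := ⟨T - u, by omega⟩
  rw [Function.iterate_add_apply]
  refine Function.iterate_fixed ?_ v
  rw [step, List.getElem?_eq_none hh]

theorem rel_init {x y : List ℕ} (F : Fit w K S x.length y.length N) (hs : ∀ a ∈ x ++ y, a < 2 ^ w) :
    Rel K x.length y.length N (State.init x y) (sl ρ (init w x y) (pro K)) := by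
  have h1 := F.hK
  have h2 := F.hl
  have h3 : N < 2 ^ w := by
    have := F.hN
    have := F.pos
    nlinarith
  refine ⟨fun i hi => ?_, ?_, ?_, ?_, ?_, fun j hj a ha => ?_, rfl⟩
  · simp (disch := omega) only [sl, pro, List.foldl_cons, List.foldl_nil, Instr.exec, set_ne]
    simp only [init, State.init, BitVec.toNat_ofNat]
    split_ifs <;> exact Nat.mod_eq_of_lt (by omega)
  · simp (disch := omega) only [sl, pro, List.foldl_cons, List.foldl_nil, Instr.exec, set_ne,
      set_self, WOp.eval, BitVec.and_self]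
    rfl
  · simp (disch := omega) only [sl, pro, List.foldl_cons, List.foldl_nil, Instr.exec, set_ne,
      set_self, WOp.eval, BitVec.and_self]
    rfl
  · simp (disch := omega) only [sl, pro, List.foldl_cons, List.foldl_nil, Instr.exec, set_ne,
      set_self, WOp.eval, BitVec.ofNat_add]
    rfl
  · simp (disch := omega) only [sl, pro, List.foldl_cons, List.foldl_nil, Instr.exec, set_ne]
    simp [init]
  · show (BitVec.ofNat w ((x ++ y).getD (BitVec.ofNat w _).toNat 0)).toNat = _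
    have b : ∀ k, (x ++ y).getD k 0 < 2 ^ w := fun k => by
      rcases Nat.lt_or_ge k (x ++ y).length with hk | hk
      · rw [List.getD_eq_getElem _ _ hk]
        exact hs _ (List.getElem_mem hk)
      · rw [List.getD_eq_default _ _ hk]
        omega
    rw [BitVec.toNat_ofNat, Nat.mod_eq_of_lt (b _), BitVec.toNat_ofNat,
      Nat.mod_eq_of_lt ((adr_lt F.hl hj ha).trans_le F.hN)]
    simp only [adr, State.init]
    split_ifs with k1 k2 k3 k4 k5 k6
    all_goals first
      | omega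
      | (rw [List.getD_append _ _ _ _ (by omega), zero_add])
      | (rw [List.getD_append_right _ _ _ _ (by omega), Nat.add_sub_cancel_left])
      | (rw [List.getD_eq_default _ _ (by rw [List.length_append]; omega),
          List.getD_eq_default _ _ (by omega)])
      | rw [List.getD_eq_default _ _ (by rw [List.length_append]; omega)]

theorem go_comp {x y : List ℕ} (F : Fit w K S x.length y.length N) (hs : ∀ a ∈ x ++ y, a < 2 ^ w)
    {ρ' : ℕ → ℕ} (hρ : ∀ k, ρ' k = (ρ k).toNat / S) {p : Prog} {s : State} {t : ℕ}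
    (h : Exec N ρ' p (State.init x y) t s) (hp : psz p ≤ K) :
    ∃ c, Go (comp K S p) ρ (init w x y) (3 + 12 * t) c ∧ Halted (comp K S p) c ∧
      (c.reg 2).toNat = s.reg 2 := by
  have a := at_append.1 (at_self [] (comp K S p))
  obtain ⟨c, g, q, R, -⟩ := go_P (ρ := ρ) F hρ h hp (rel_init F hs) le_rfl rfl a.2
  refine ⟨c, (go_sl (by simp [pro, Instr.exec, set_pc]) a.1).trans g, ?_, R.reg 2 F.hK⟩
  rw [Halted, q, comp, List.length_append]
  rfl

theorem card_le {A B C : Type*} [Finite A] (E : A ≃ B × C) {p : B → Prop} {q : A → Prop}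
    (h : ∀ a, p (E a).1 → q a) (e : 2 * Nat.card B ≤ 3 * Nat.card {b // p b}) :
    2 * Nat.card A ≤ 3 * Nat.card {a // q a} := by
  have h1 : Nat.card ({b // p b} × C) ≤ Nat.card {a // q a} :=
    Nat.card_le_card_of_injective (fun z => ⟨E.symm (z.1.1, z.2), h _ (by simpa using z.1.2)⟩)
      fun z z' k => by
        have := Prod.mk.inj (E.symm.injective (congrArg Subtype.val k))
        exact Prod.ext (Subtype.ext this.1) this.2
  rw [Nat.card_prod] at h1
  rw [Nat.card_congr E, Nat.card_prod]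
  nlinarith [Nat.mul_le_mul_right (Nat.card C) e]

/-- The high and the low part of a word. -/
def split (b K : ℕ) : BitVec (b + K) ≃ Fin (2 ^ b) × Fin (2 ^ K) :=
  BitVec.equivFin.toEquiv.trans ((finCongr (pow_add 2 b K)).trans finProdFinEquiv.symm)

theorem split_fst (b K : ℕ) (z : BitVec (b + K)) : ((split b K z).1 : ℕ) = z.toNat / 2 ^ K := rfl

theorem upper (ε : ℝ) (hε : 0 < ε) : ∃ (k : ℕ) (P : List Instr), ∀ δ : ℝ, 0 < δ → ∃ C : ℝ,
    ∀ (x y : List ℕ) (n m w T : ℕ), x.length ≤ n → y.length ≤ n → (∀ a ∈ x ++ y, a < m) →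
      (n + m + 2) ^ k ≤ 2 ^ w → C * ((n : ℝ) + 1) ^ (1 + δ) ≤ T →
      (∀ ρ : Fin T → BitVec w, Halted P (run P x y ρ)) ∧
      2 * Nat.card (Fin T → BitVec w) ≤
        3 * Nat.card {ρ : Fin T → BitVec w // Approx (1 + ε) x y (run P x y ρ)} := by
  obtain ⟨k, p, t, hP, ht⟩ := Vale.Agent.P315Z.almost_linear hε
  set K := max (psz p) 3 with hK
  refine ⟨k + 2 + K, comp K (2 ^ K) p, fun δ hδ => ?_⟩
  obtain ⟨C, hC⟩ := ht δ hδ
  refine ⟨3 + 12 * max C 0, fun x y n m w T hx hy hs hw hT => ?_⟩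
  have h1 : (n + m + 2) ^ (k + 2) * 2 ^ K ≤ 2 ^ w := by
    rw [pow_add _ (k + 2)] at hw
    exact (Nat.mul_le_mul_left _ (Nat.pow_le_pow_left (by omega) K)).trans hw
  have h2 : K ≤ w := (Nat.pow_le_pow_iff_right one_lt_two).1
    ((Nat.le_mul_of_pos_left _ (by positivity)).trans h1)
  obtain ⟨b, rfl⟩ : ∃ b, w = b + K := ⟨w - K, by omega⟩
  rw [pow_add 2 b K] at h1
  have h3 : (n + m + 2) ^ (k + 2) ≤ 2 ^ b := Nat.le_of_mul_le_mul_right h1 (by positivity)
  have h4 : 2 * (n + m + 2) ≤ 2 ^ b := by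
    refine le_trans ?_ ((Nat.pow_le_pow_right (by omega) (by omega : 2 ≤ k + 2)).trans h3)
    rw [sq]
    exact Nat.mul_le_mul_right _ (by omega)
  have h5 : (max x.length y.length + 2) ^ k ≤ 2 ^ b :=
    ((Nat.pow_le_pow_left (by omega) k).trans (Nat.pow_le_pow_right (by omega) (by omega))).trans h3
  have F : Fit (b + K) K (2 ^ K) x.length y.length (2 ^ b) :=
    ⟨by rw [pow_add]; exact Nat.mul_le_mul_left _ Nat.lt_two_pow_self, by omega,
      by rw [pow_add]; exact (Nat.lt_mul_iff_one_lt_left (Nat.two_pow_pos K)).2 (by omega),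
      le_max_right _ _, Nat.two_pow_pos b⟩
  have hs1 : ∀ a ∈ x ++ y, a < 2 ^ b := fun a ha => (hs a ha).trans_le (by omega)
  have hs2 : ∀ a ∈ x ++ y, a < 2 ^ (b + K) := fun a ha => (hs1 a ha).trans_le F.le
  obtain ⟨q1, q2⟩ := hP x y _ b rfl h5 hs1
  have h6 : (1 : ℝ) ≤ ((n : ℝ) + 1) ^ (1 + δ) :=
    Real.one_le_rpow (by linarith [Nat.cast_nonneg (α := ℝ) n]) (by linarith)
  have h7 : t (max x.length y.length) ≤ max C 0 * ((n : ℝ) + 1) ^ (1 + δ) := by
    refine (hC _).trans ((mul_le_mul_of_nonneg_right (le_max_left C 0) (by positivity)).trans ?_)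
    gcongr
    exact max_le hx hy
  have h8 : 0 ≤ max C 0 * ((n : ℝ) + 1) ^ (1 + δ) := by positivity
  let E : (Fin T → BitVec (b + K)) ≃ (Fin T → Fin (2 ^ b)) × (Fin T → Fin (2 ^ K)) :=
    (Equiv.piCongrRight fun _ => split b K).trans (Equiv.arrowProdEquivProdArrow _ _ _)
  have hE : ∀ ρ : Fin T → BitVec (b + K), ∀ i, tape (E ρ).1 i =
      (if h : i < T then ρ ⟨i, h⟩ else 0).toNat / 2 ^ K := fun ρ i => by
    unfold tape
    split_ifs
    · rfl
    · simp
  have main : ∀ ρ : Fin T → BitVec (b + K), Halted (comp K (2 ^ K) p)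
      (run (comp K (2 ^ K) p) x y ρ) ∧ ∀ u s, Exec (2 ^ b) (tape (E ρ).1) p (State.init x y) u s →
        ((run (comp K (2 ^ K) p) x y ρ).reg 2).toNat = s.reg 2 := fun ρ => by
    obtain ⟨u, s, e1, e2⟩ := q1 (tape (E ρ).1) fun i => by
      unfold tape
      split_ifs
      exacts [Fin.isLt _, Nat.two_pow_pos b]
    obtain ⟨c, g, a1, -⟩ := go_comp F hs2 (hE ρ) e1 (le_max_left _ _)
    have r : run (comp K (2 ^ K) p) x y ρ = c := g.halt a1 (by
      have : ((3 + 12 * u : ℕ) : ℝ) ≤ T := by push_cast; nlinarith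
      exact_mod_cast this)
    refine ⟨r ▸ a1, fun u' s' e => ?_⟩
    obtain ⟨c', g', a2, a3⟩ := go_comp F hs2 (hE ρ) e (le_max_left _ _)
    rw [r, ← g.halt a1 (le_max_left _ _), g'.halt a2 (le_max_right _ _), a3]
  have := fin_bv (b + K)
  refine ⟨fun ρ => (main ρ).1, card_le E (fun ρ h => ?_) (q2 T (by nlinarith))⟩
  obtain ⟨u, s, e, h⟩ := h
  rwa [Approx, (main ρ).2 u s e]

end Vale.Agent.P315R80
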