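import Vale.Agent.P315.Model

/-! The standard randomised word RAM: registers, one memory of `2 ^ w` words with indirect
addressing, the operations of C on `w`-bit words, jumps, and an instruction for a random word. -/

set_option autoImplicit false

namespace Vale.Agent.P315R80

/-- The unit-cost binary operations on words. -/
inductive WOp
  | add | sub | mul | div | mod | shl | shr | and | or | xor | eq | lt

/-- The value of an operation on unsigned `w`-bit words (arithmetic modulo `2 ^ w`). -/
def WOp.eval {w : ℕ} : WOp → BitVec w → BitVec w → BitVec w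
  | .add, a, b => a + b
  | .sub, a, b => a - b
  | .mul, a, b => a * b
  | .div, a, b => a / b
  | .mod, a, b => a % b
  | .shl, a, b => a <<< b
  | .shr, a, b => a >>> b
  | .and, a, b => a &&& b
  | .or, a, b => a ||| b
  | .xor, a, b => a ^^^ b
  | .eq, a, b => if a = b then 1 else 0
  | .lt, a, b => if a < b then 1 else 0

/-- Instructions: `R r := c`, `R r := R a ∘ R b`, `R r := M (R a)`, `M (R a) := R r`,
`R r :=` a random word, `if R r = 0 goto l`, `goto l`. -/
inductive Instr
  | const (r c : ℕ)
  | op (o : WOp) (r a b : ℕ)
  | load (r a : ℕ)
  | store (a r : ℕ)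
  | rand (r : ℕ)
  | jz (r l : ℕ)
  | jmp (l : ℕ)

/-- Configurations: program counter, registers, memory, number of random words used so far. -/
structure Cfg (w : ℕ) where
  pc : ℕ
  reg : ℕ → BitVec w
  mem : BitVec w → BitVec w
  coins : ℕ

/-- Write `v` to register `r` and go to the next instruction. -/
def Cfg.set {w : ℕ} (c : Cfg w) (r : ℕ) (v : BitVec w) : Cfg w :=
  { c with pc := c.pc + 1, reg := Function.update c.reg r v }

/-- The effect of one instruction; `ρ 0, ρ 1, …` are the random words. -/
def Instr.exec {w : ℕ} (ρ : ℕ → BitVec w) (c : Cfg w) : Instr → Cfg w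
  | .const r v => c.set r (BitVec.ofNat w v)
  | .op o r a b => c.set r (o.eval (c.reg a) (c.reg b))
  | .load r a => c.set r (c.mem (c.reg a))
  | .store a r => { c with pc := c.pc + 1, mem := Function.update c.mem (c.reg a) (c.reg r) }
  | .rand r => { c.set r (ρ c.coins) with coins := c.coins + 1 }
  | .jz r l => { c with pc := if c.reg r = 0 then l else c.pc + 1 }
  | .jmp l => { c with pc := l }

/-- One step of the program `P`; nothing happens when the counter has left the program. -/
def step {w : ℕ} (P : List Instr) (ρ : ℕ → BitVec w) (c : Cfg w) : Cfg w :=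
  match P[c.pc]? with
  | some i => i.exec ρ c
  | none => c

/-- The initial configuration: the memory holds `x`, then `y`, then zeros; the registers `0` and
`1` hold the lengths of `x` and `y`, the other registers are zero. -/
def init (w : ℕ) (x y : List ℕ) : Cfg w where
  pc := 0
  reg := fun r => BitVec.ofNat w (if r = 0 then x.length else if r = 1 then y.length else 0)
  mem := fun a => BitVec.ofNat w ((x ++ y).getD a.toNat 0)
  coins := 0

/-- The configuration after `T` steps on the input `x, y` with the random words `ρ`. -/
def run {w T : ℕ} (P : List Instr) (x y : List ℕ) (ρ : Fin T → BitVec w) : Cfg w :=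
  (step P fun i => if h : i < T then ρ ⟨i, h⟩ else 0)^[T] (init w x y)

/-- The program has halted: the counter has left the program. -/
def Halted {w : ℕ} (P : List Instr) (c : Cfg w) : Prop := P.length ≤ c.pc

/-- The output `D`, the content of register `2`, has `ED x y ≤ D ≤ α ED x y`. -/
def Approx {w : ℕ} (α : ℝ) (x y : List ℕ) (c : Cfg w) : Prop :=
  P315.ED x y ≤ (c.reg 2).toNat ∧ ((c.reg 2).toNat : ℝ) ≤ α * P315.ED x y

end Vale.Agent.P315R80
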