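import Vale.Agent.P315R80.Code

/-! The compiled code simulates the structured program, with at most twelve steps per step. -/

set_option autoImplicit false

namespace Vale.Agent.P315R80

open Vale.Agent.P315

variable {w : ℕ} {P : List Instr} {ρ : ℕ → BitVec w} {K S lx ly N : ℕ}

theorem eval_lt {s : State} {e : Expr} {v t : ℕ} (h : Eval N s e v t) : v < N := by
  cases h <;> assumption

theorem go_E (F : Fit w K S lx ly N) {s : State} {e : Expr} {v t : ℕ} (h : Eval N s e v t)
    (he : esz e ≤ K) {d : ℕ} {c : Cfg w} (R : Rel K lx ly N s c) (hd : K + 4 ≤ d)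
    (a : At P c.pc (cE K e d)) :
    ∃ c', Go P ρ c (12 * t) c' ∧ c'.pc = c.pc + (cE K e d).length ∧ (c'.reg d).toNat = v ∧
      Same d c c' := by
  induction h generalizing d c with
  | lit v h =>
    refine ⟨_, (Go.one a.1).mono (by omega), rfl, ?_, same_set le_rfl _⟩
    rw [Instr.exec, set_self, BitVec.toNat_ofNat, Nat.mod_eq_of_lt (h.trans_le F.le)]
  | reg i h =>
    refine ⟨_, (Go.one a.1).mono (by omega), rfl, ?_, same_set le_rfl _⟩
    rw [Instr.exec, set_self, WOp.eval, BitVec.and_self, R.reg i he]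
  | get j e b t h1 h2 ih =>
    simp only [esz, max_le_iff] at he
    simp only [cE, at_append] at a
    obtain ⟨c1, g1, p1, v1, s1⟩ := ih he.2 R hd a.1
    obtain ⟨c2, g2, p2, v2, s2⟩ := go_A (ρ := ρ) F (R.same s1 hd) hd v1 (p1 ▸ a.2.1)
    have a3 : P[c2.pc]? = some (.load d d) := by rw [p2, p1]; exact a.2.2.1
    refine ⟨_, ((g1.trans g2).trans (Go.one a3)).mono (by omega), ?_, ?_,
      (s1.trans s2 le_rfl).trans (same_set le_rfl _) le_rfl⟩
    · simp only [Instr.exec, set_pc, p2, p1, cE, cA, List.length_append, List.length_cons,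
        List.length_nil]
      omega
    · rw [Instr.exec, set_self, v2, s2.mem, s1.mem, R.mem j he.1 b (eval_lt h1)]
  | op o e e' b b' t t' h1 h2 h3 ih ih' =>
    simp only [esz, max_le_iff] at he
    simp only [cE, at_append] at a
    obtain ⟨c1, g1, p1, v1, s1⟩ := ih he.1 R hd a.1
    obtain ⟨c2, g2, p2, v2, s2⟩ := ih' he.2 (R.same s1 hd) (d := d + 1) (by omega) (p1 ▸ a.2.1)
    obtain ⟨c3, g3, p3, v3, s3⟩ := go_O (P := P) (ρ := ρ) F
      ((congrArg _ (s2.reg d (by omega))).trans v1) v2 h3 (by rw [p2, p1]; exact a.2.2)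
    refine ⟨_, ((g1.trans g2).trans g3).mono (by omega), ?_, v3,
      (s1.trans s2 (by omega)).trans s3 le_rfl⟩
    simp only [p3, p2, p1, cE, List.length_append]
    omega

theorem Rel.setReg {s : State} {c : Cfg w} (R : Rel K lx ly N s c) {i v : ℕ} (hi : i < K)
    {z : BitVec w} (hz : z.toNat = v) : Rel K lx ly N (s.setReg i v) (c.set i z) := by
  refine ⟨fun r hr => ?_, by rw [set_ne _ _ (by omega), R.r0], by rw [set_ne _ _ (by omega), R.r1],
    by rw [set_ne _ _ (by omega), R.r2], by rw [set_ne _ _ (by omega), R.r3], R.mem, R.coins⟩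
  rcases eq_or_ne r i with rfl | k
  · rw [set_self, hz, State.setReg]
    simp
  · rw [set_ne _ _ k, R.reg r hr, State.setReg]
    simp [k]

theorem Rel.pc {s : State} {c : Cfg w} (R : Rel K lx ly N s c) (l : ℕ) :
    Rel K lx ly N s { c with pc := l } :=
  ⟨R.reg, R.r0, R.r1, R.r2, R.r3, R.mem, R.coins⟩

theorem Rel.store (F : Fit w K S lx ly N) {s : State} {c : Cfg w} (R : Rel K lx ly N s c)
    {j a v p q : ℕ} (hj : j < K) (ha : a < N) (hp : c.reg p = BitVec.ofNat w (adr K lx ly j a))
    (hq : (c.reg q).toNat = v) :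
    Rel K lx ly N (s.setArr j a v) ((Instr.store p q).exec ρ c) := by
  refine ⟨R.reg, R.r0, R.r1, R.r2, R.r3, fun j' hj' a' ha' => ?_, R.coins⟩
  simp only [Instr.exec, State.setArr, hp]
  by_cases k : j' = j ∧ a' = a
  · obtain ⟨rfl, rfl⟩ := k
    simp [hq]
  · rw [Function.update_of_ne, R.mem j' hj' a' ha']
    · by_cases k1 : j' = j
      · subst k1
        rw [Function.update_self, Function.update_of_ne fun e => k ⟨rfl, e⟩]
      · rw [Function.update_of_ne k1]
    · intro e
      have := congrArg BitVec.toNat e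
      rw [BitVec.toNat_ofNat, BitVec.toNat_ofNat,
        Nat.mod_eq_of_lt ((adr_lt F.hl hj' ha').trans_le F.hN),
        Nat.mod_eq_of_lt ((adr_lt F.hl hj ha).trans_le F.hN)] at this
      exact k (adr_inj hj' hj this)

/-- The registers from `K + 4` up to `d` are not changed. -/
def Keep (K d : ℕ) (c c' : Cfg w) : Prop := ∀ r, K + 4 ≤ r → r < d → c'.reg r = c.reg r

theorem Keep.trans {d d' : ℕ} {c c' c'' : Cfg w} (h : Keep K d c c') (h' : Keep K d' c' c'')
    (e : d ≤ d') : Keep K d c c'' := fun r a b => (h' r a (b.trans_le e)).trans (h r a b)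

theorem Same.keep {d : ℕ} {c c' : Cfg w} (h : Same d c c') : Keep K d c c' := fun r _ b => h.reg r b

theorem keep_set {d i : ℕ} {c : Cfg w} (hi : i < K) (z : BitVec w) : Keep K d c (c.set i z) :=
  fun _ _ _ => set_ne _ _ (by omega)

theorem Go.at {c : Cfg w} {l : ℕ} {i : Instr} (hl : c.pc = l) (h : P[l]? = some i) :
    Go P ρ c 1 (i.exec ρ c) := Go.one (by rw [hl]; exact h)

theorem and_nat {z : BitVec w} {v : ℕ} (h : z.toNat = v) : (WOp.and.eval z z).toNat = v :=
  (congrArg BitVec.toNat (BitVec.and_self (x := z))).trans h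

theorem toNat_ne {z : BitVec w} {v : ℕ} (h : z.toNat = v) : z = 0 ↔ v = 0 := by
  rw [← h, BitVec.toNat_eq]
  simp

theorem go_P (F : Fit w K S lx ly N) {ρ' : ℕ → ℕ} (hρ : ∀ k, ρ' k = (ρ k).toNat / S) {p : Prog}
    {s s' : State} {t : ℕ} (h : Exec N ρ' p s t s') (hp : psz p ≤ K) {d l : ℕ} {c : Cfg w}
    (R : Rel K lx ly N s c) (hd : K + 4 ≤ d) (hl : c.pc = l) (a : At P l (cP K S p d l)) :
    ∃ c', Go P ρ c (12 * t) c' ∧ c'.pc = l + (cP K S p d l).length ∧ Rel K lx ly N s' c' ∧
      Keep K d c c' := by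
  induction h generalizing d c l with
  | set i e s v t he =>
    subst hl
    simp only [psz, max_le_iff] at hp
    simp only [cP, at_append] at a
    obtain ⟨c1, g1, p1, v1, s1⟩ := go_E (ρ := ρ) F he hp.2 R hd a.1
    refine ⟨_, (g1.trans (Go.at p1 a.2.1)).mono (by omega), ?_,
      (R.same s1 hd).setReg hp.1 (and_nat v1), s1.keep.trans (keep_set hp.1 _) le_rfl⟩
    simp only [Instr.exec, set_pc, p1, cP, List.length_append, List.length_cons, List.length_nil]
    omega
  | put j e e' s b v t t' he he' =>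
    subst hl
    simp only [psz, max_le_iff] at hp
    simp only [cP, at_append] at a
    obtain ⟨c1, g1, p1, v1, s1⟩ := go_E (ρ := ρ) F he hp.2.1 R hd a.1
    obtain ⟨c2, g2, p2, v2, s2⟩ := go_A (ρ := ρ) F (R.same s1 hd) hd v1 (p1 ▸ a.2.1)
    have R2 := (R.same s1 hd).same s2 hd
    obtain ⟨c3, g3, p3, v3, s3⟩ := go_E (P := P) (ρ := ρ) F he' hp.2.2 R2 (d := d + 1) (by omega)
      (by rw [p2, p1]; exact a.2.2.1)
    have a4 : P[c3.pc]? = some (.store d (d + 1)) := by rw [p3, p2, p1]; exact a.2.2.2.1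
    refine ⟨_, (((g1.trans g2).trans g3).trans (Go.one a4)).mono (by omega), ?_,
      (R2.same s3 (by omega)).store F hp.1 (eval_lt he) ((s3.reg d (by omega)).trans v2) v3,
      ((s1.trans s2 le_rfl).trans s3 (by omega)).keep⟩
    simp only [Instr.exec, p3, p2, p1, cP, cA, List.length_append, List.length_cons,
      List.length_nil]
    omega
  | rand i s h =>
    subst hl
    have hi : i < K := hp
    let c1 : Cfg w := (Instr.rand d).exec ρ c
    have R1 : Rel K lx ly N { s with coins := s.coins + 1 } c1 :=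
      have := R.same (same_set le_rfl (ρ c.coins)) hd
      ⟨this.reg, this.r0, this.r1, this.r2, this.r3, this.mem, congrArg (· + 1) R.coins⟩
    have R2 := R1.same (same_set (Nat.le_succ d) (BitVec.ofNat w S)) hd
    refine ⟨_, (go_sl (by simp [cP, Instr.exec, set_pc]) a).mono (by simp [cP]), rfl,
      R2.setReg (v := ρ' s.coins) hi ?_, fun r r1 r2 => ?_⟩
    · show ((c1.set (d + 1) (BitVec.ofNat w S)).reg d /
        (c1.set (d + 1) (BitVec.ofNat w S)).reg (d + 1)).toNat = _
      rw [BitVec.toNat_udiv, set_self, set_ne _ _ (by omega), BitVec.toNat_ofNat,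
        Nat.mod_eq_of_lt F.hS, hρ, ← R.coins]
      exact congrArg (fun z => BitVec.toNat z / S) (set_self c d _)
    · exact (set_ne _ _ (by omega)).trans ((set_ne _ _ (by omega)).trans (set_ne c _ (by omega)))
  | seq p q s s1 s2 t t' h h' ih ih' =>
    simp only [psz, max_le_iff] at hp
    simp only [cP, at_append] at a
    obtain ⟨c1, g1, p1, R1, k1⟩ := ih hp.1 R hd hl a.1
    obtain ⟨c2, g2, p2, R2, k2⟩ := ih' hp.2 R1 hd p1 a.2
    refine ⟨_, (g1.trans g2).mono (by omega), ?_, R2, k1.trans k2 le_rfl⟩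
    simp only [p2, cP, List.length_append]
    omega
  | iteTrue e p q s s1 v t t' he hv h ih =>
    subst hl
    simp only [psz, max_le_iff] at hp
    simp only [cP, at_append, At] at a
    obtain ⟨c1, g1, p1, v1, s1⟩ := go_E (ρ := ρ) F he hp.1 R hd a.1
    have g2 := Go.at (ρ := ρ) p1 a.2.1
    rw [Instr.exec, if_neg (mt (toNat_ne v1).1 hv), p1] at g2
    obtain ⟨c3, g3, p3, R3, k3⟩ := ih hp.2.1 ((R.same s1 hd).pc _) hd rfl a.2.2.1
    refine ⟨_, (((g1.trans g2).trans g3).trans (Go.at p3 a.2.2.2.1)).mono (by omega), ?_, R3.pc _,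
      s1.keep.trans k3 le_rfl⟩
    simp only [Instr.exec, cP, List.length_append, List.length_cons]
    omega
  | iteFalse e p q s s1 t t' he h ih =>
    subst hl
    simp only [psz, max_le_iff] at hp
    simp only [cP, at_append, At] at a
    obtain ⟨c1, g1, p1, v1, s1⟩ := go_E (ρ := ρ) F he hp.1 R hd a.1
    have g2 := Go.at (ρ := ρ) p1 a.2.1
    rw [Instr.exec, if_pos ((toNat_ne v1).2 rfl)] at g2
    obtain ⟨c3, g3, p3, R3, k3⟩ := ih hp.2.2 ((R.same s1 hd).pc _) hd rfl a.2.2.2.2
    refine ⟨_, ((g1.trans g2).trans g3).mono (by omega), ?_, R3, s1.keep.trans k3 le_rfl⟩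
    simp only [p3, cP, List.length_append, List.length_cons]
    omega
  | loop i e p n t σ τ he h ih =>
    subst hl
    simp only [psz, max_le_iff] at hp
    simp only [cP, at_append, At] at a
    obtain ⟨a1, a2, a3, a4, a5, a6, a7, a8, a9, -⟩ := a
    obtain ⟨c1, g1, p1, v1, s1⟩ := go_E (ρ := ρ) F he hp.2.1 R hd a1
    have hn := (eval_lt he).trans_le F.le
    have i1 := toNat_ite F.one
    have i2 := F.one
    set l1 := c.pc + (cE K e d).length + 1 with hl1
    have test : ∀ (k : ℕ) (u : Cfg w), u.pc = l1 → (u.reg d).toNat = n → (u.reg (d + 1)).toNat = k →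
        ∃ u' : Cfg w, Same (d + 2) u u' ∧ Go P ρ u 2 u' ∧ u'.pc =
          if k < n then l1 + 2 else l1 + 3 + (cP K S p (d + 2) (l1 + 3)).length + 3 := by
      intro k u q1 q2 q3
      refine ⟨_, ?_, (Go.at q1 a3).trans (Go.at (congrArg (· + 1) q1) a4), ?_⟩
      · exact ⟨rfl, rfl, (same_set le_rfl _).reg⟩
      · have := toNat_ne (i1 (k < n))
        simp only [Instr.exec, set_self, set_pc, WOp.eval, BitVec.lt_def, q1, q2, q3, this]
        by_cases hk : k < n <;> simp [hk]
    have key : ∀ k ≤ n, ∃ u : Cfg w, Go P ρ c1 (1 + 12 * ∑ m ∈ Finset.range k, (τ m + 2)) u ∧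
        u.pc = l1 ∧ Rel K lx ly N (σ k) u ∧ (u.reg d).toNat = n ∧ (u.reg (d + 1)).toNat = k ∧
        Keep K d c1 u := by
      intro k
      induction k with
      | zero =>
        refine fun _ => ⟨_, (Go.at p1 a2).mono (by omega), congrArg (· + 1) p1,
          (R.same s1 hd).same (same_set (Nat.le_succ d) _) hd, ?_, ?_,
          (same_set (Nat.le_succ d) _).keep⟩
        · rw [Instr.exec, set_ne _ _ (by omega), v1]
        · rw [Instr.exec, set_self]; simp
      | succ k ihk =>
        intro hk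
        obtain ⟨u, b1, b2, b3, b4, b5, b6⟩ := ihk (by omega)
        obtain ⟨u1, d1, d2, d3⟩ := test k u b2 b4 b5
        rw [if_pos (by omega)] at d3
        have e1 : (u1.reg (d + 1)).toNat = k := by rw [d1.reg _ (by omega), b5]
        obtain ⟨u3, f1, f2, f3, f4⟩ := ih k hk hp.2.2 ((b3.same d1 (by omega)).setReg hp.1
          (and_nat e1)) (d := d + 2) (l := l1 + 3) (by omega) (congrArg (· + 1) d3) a6
        have m : ∀ r, K + 4 ≤ r → r < d + 2 → u3.reg r = u.reg r := fun r r1 r2 => by
          rw [f4 r r1 r2, set_ne _ _ (by omega), d1.reg r r2]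
        have f7 := ((Go.at (ρ := ρ) f2 a7).trans (Go.at (congrArg (· + 1) f2) a8)).trans
          (Go.at (congrArg (· + 1 + 1) f2) a9)
        have sm : Same (d + 1) u3 _ := (same_set (r := d + 2) (by omega) (BitVec.ofNat w 1)).trans
          (same_set (r := d + 1) le_rfl (WOp.add.eval ((u3.set (d + 2) (BitVec.ofNat w 1)).reg
            (d + 1)) ((u3.set (d + 2) (BitVec.ofNat w 1)).reg (d + 2)))) le_rfl
        refine ⟨_, ((((b1.trans d2).trans (Go.at d3 a5)).trans f1).trans f7).mono
          (by rw [Finset.sum_range_succ]; omega), rfl, (f3.same sm (by omega)).pc _, ?_, ?_,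
          fun r r1 r2 => ?_⟩
        · exact (congrArg _ ((sm.reg d (by omega)).trans (m d hd (by omega)))).trans b4
        · simp (disch := omega) only [Instr.exec, set_self, set_ne, WOp.eval, BitVec.toNat_add,
            BitVec.toNat_ofNat, m, b5, Nat.mod_eq_of_lt]
        · exact ((sm.reg r (by omega)).trans (m r r1 (by omega))).trans (b6 r r1 r2)
    obtain ⟨u, b1, b2, b3, b4, b5, b6⟩ := key n le_rfl
    obtain ⟨u1, d1, d2, d3⟩ := test n u b2 b4 b5
    rw [if_neg (lt_irrefl n)] at d3
    refine ⟨_, ((g1.trans b1).trans d2).mono (by omega), ?_, b3.same d1 (by omega),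
      (s1.keep.trans b6 le_rfl).trans d1.keep (by omega)⟩
    simp only [d3, cP, List.length_append, List.length_cons, List.length_nil, ← hl1]
    omega

end Vale.Agent.P315R80
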